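import Vale.Agent.P092.QT.H821.Th3

/-!
P092-Q (helper821), block [Q-THETA], part 4: the product formula, `ThF`.
-/

set_option linter.all false

open MeasureTheory Filter Topology ContinuousLinearMap
open scoped InnerProductSpace ENNReal

namespace Vale.Agent.P092.QT.H821

open Vale.Agent.P092.H821

open Vale.Agent.P092.H160
open Vale.Agent.P092.QT.H156.Sm
open Vale.Agent.P092.H565 (SqFam)
open Vale.Agent.P092.H242.ThC
open Vale.Agent.P092.H978

section hold

variable {T K : Type} [MeasurableSpace T] {τ : Measure T} [NormedAddCommGroup K]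
  [InnerProductSpace ℂ K] [CompleteSpace K]

theorem integral_norm_inner_le {f g : T → K} (hf : MemLp f 2 τ) (hg : MemLp g 2 τ) :
    ∫ x, ‖⟪f x, g x⟫_ℂ‖ ∂τ ≤ ‖hf.toLp f‖ * ‖hg.toLp g‖ := by
  have hf' : MemLp (fun x => ((‖f x‖ : ℝ) : ℂ)) 2 τ := hf.norm.ofReal
  have hg' : MemLp (fun x => ((‖g x‖ : ℝ) : ℂ)) 2 τ := hg.norm.ofReal
  have h1 := norm_integral_inner_le hf' hg'
  have e1 : ‖hf'.toLp _‖ = ‖hf.toLp f‖ := by
    rw [Lp.norm_toLp, Lp.norm_toLp]
    congr 1
    exact eLpNorm_congr_norm_ae (Eventually.of_forall fun x => by simp)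
  have e2 : ‖hg'.toLp _‖ = ‖hg.toLp g‖ := by
    rw [Lp.norm_toLp, Lp.norm_toLp]
    congr 1
    exact eLpNorm_congr_norm_ae (Eventually.of_forall fun x => by simp)
  rw [e1, e2] at h1
  have e3 : ∫ x, ⟪((‖f x‖ : ℝ) : ℂ), ((‖g x‖ : ℝ) : ℂ)⟫_ℂ ∂τ =
      ((∫ x, ‖f x‖ * ‖g x‖ ∂τ : ℝ) : ℂ) := by
    rw [← integral_complex_ofReal]
    refine integral_congr_ae (Eventually.of_forall fun x => ?_)
    simp only
    rw [RCLike.inner_apply, Complex.conj_ofReal]
    push_cast
    ring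
  rw [e3, Complex.norm_real] at h1
  refine le_trans ?_ ((le_abs_self _).trans h1)
  have hi : Integrable (fun x => ‖f x‖ * ‖g x‖) τ := hf.norm.integrable_mul hg.norm
  refine integral_mono_of_nonneg (Eventually.of_forall fun x => norm_nonneg _) hi
    (Eventually.of_forall fun x => norm_inner_le_norm _ _)

end hold

section op

variable {A L X G G' H K M : Type} [NonUnitalRing A] [StarRing A] [Module ℂ A]
  [SMulCommClass ℂ A A] [IsScalarTower ℂ A A]
  [NormedAddCommGroup L] [InnerProductSpace ℂ L] [CompleteSpace L]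
  [Group X] [Countable X]
  [Group G] [TopologicalSpace G] [IsTopologicalGroup G]
  [SecondCountableTopology G] [MeasurableSpace G] [BorelSpace G]
  [Group G'] [TopologicalSpace G'] [IsTopologicalGroup G']
  [SecondCountableTopology G'] [MeasurableSpace G'] [BorelSpace G']
  [Group H] [TopologicalSpace H] [MeasurableSpace H]
  [NormedAddCommGroup K] [InnerProductSpace ℂ K] [CompleteSpace K]
  [NormedAddCommGroup M] [InnerProductSpace ℂ M] [CompleteSpace M]
  {j : A →ₗ[ℂ] L} {r : G → A → A} {ι : X →* G} {ρ : X →* (K →L[ℂ] K)} {μ : Measure G}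
  {φ : A →ₗ[ℂ] (G → K →L[ℂ] K)} {ι' : X →* G'} {ω : K} {μ' : Measure G'}
  {𝒳 : Submodule ℂ (G' → K →L[ℂ] K)} {e : 𝒳 →ₗ[ℂ] M}
  {α : H → A → A} {U : H →* (L →L[ℂ] L)} {m : Measure H} {R : G →* (L →L[ℂ] L)}
  [SFinite μ] [SFinite μ'] [μ.IsMulLeftInvariant] [μ'.IsMulLeftInvariant]

variable (h : TRep ρ ω) (hφ : Rl j r ι ρ μ φ) (hM : Md μ φ ι' ρ ω μ' 𝒳 e)

include h in
theorem Tm_sub_left (a b c : A) : Tm hφ hM (a - b) c = Tm hφ hM a c - Tm hφ hM b c := by
  have := Tm_add_left h hφ hM (a - b) b c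
  rw [sub_add_cancel] at this
  rw [this, add_sub_cancel_right]

include h in
theorem Tm_sub_right (a b c : A) : Tm hφ hM a (b - c) = Tm hφ hM a b - Tm hφ hM a c := by
  have := Tm_add_right h hφ hM a (b - c) c
  rw [sub_add_cancel] at this
  rw [this, add_sub_cancel_right]

include h in
theorem Tm_cont {Z : Type*} [TopologicalSpace Z] {f g : Z → A}
    (hf : Continuous fun x => j (f x)) (hg : Continuous fun x => j (g x)) :
    Continuous fun x => Tm hφ hM (f x) (g x) := by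
  rw [continuous_iff_continuousAt]
  intro x₀
  rw [ContinuousAt, tendsto_iff_norm_sub_tendsto_zero]
  have hb : ∀ x, ‖Tm hφ hM (f x) (g x) - Tm hφ hM (f x₀) (g x₀)‖ ≤
      ‖j (f x) - j (f x₀)‖ * ‖j (g x)‖ + ‖j (f x₀)‖ * ‖j (g x) - j (g x₀)‖ := by
    intro x
    have e : Tm hφ hM (f x) (g x) - Tm hφ hM (f x₀) (g x₀) =
        Tm hφ hM (f x - f x₀) (g x) + Tm hφ hM (f x₀) (g x - g x₀) := by
      rw [Tm_sub_left h, Tm_sub_right h]; abel
    rw [e]
    refine (norm_add_le _ _).trans (add_le_add ?_ ?_)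
    · rw [← map_sub]; exact norm_Tm_le h hφ hM _ _
    · rw [← map_sub]; exact norm_Tm_le h hφ hM _ _
  refine squeeze_zero (fun _ => norm_nonneg _) hb ?_
  have hcont : Continuous fun x => ‖j (f x) - j (f x₀)‖ * ‖j (g x)‖ +
      ‖j (f x₀)‖ * ‖j (g x) - j (g x₀)‖ :=
    ((hf.sub continuous_const).norm.mul hg.norm).add
      (continuous_const.mul (hg.sub continuous_const).norm)
  have := hcont.tendsto x₀
  simpa using this

omit [SMulCommClass ℂ A A] [IsScalarTower ℂ A A] [CompleteSpace L] [Countable X]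
  [IsTopologicalGroup G] [SFinite μ] [μ.IsMulLeftInvariant] in
/-- the product of a field and a right translate -/
theorem sq_mul_rt (hφ : Rl j r ι ρ μ φ) (b b' : A) (w : G) :
    φ (b * r w b') = fun y => φ b y * φ b' (y * w) := by
  funext y
  rw [hφ.mul, hφ.rt]

include h in
/-- the product formula on fields -/
theorem Tm_prod_e (P : Pk j α U m r R μ) (b c b' c' : A) (z x : 𝒳) :
    ⟪e z, Tm hφ hM b c (Tm hφ hM b' c' (e x))⟫_ℂ =
      ∫ w, ⟪e z, Tm hφ hM (b * r w b') (c * r w c') (e x)⟫_ℂ ∂μ := by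
  set F : G' → G → ℂ := fun u w =>
    ⟪z.1 u ω, th μ (φ (b * r w b')) (φ (c * r w c')) (x.1 u) ω⟫_ℂ with hF
  have e1 : ⟪e z, Tm hφ hM b c (Tm hφ hM b' c' (e x))⟫_ℂ = ∫ u, ∫ w, F u w ∂μ ∂μ' := by
    rw [Tm_e h, Tm_e h, hM.inn]
    refine integral_congr_ae (Eventually.of_forall fun u => ?_)
    change ⟪z.1 u ω, th μ (φ b) (φ c) (th μ (φ b') (φ c') (x.1 u)) ω⟫_ℂ = _
    rw [th_prod (hφ.sq b) (hφ.sq c) (hφ.sq b') (hφ.sq c')
      (fun w => ⟨‖j (b * r w b')‖, by rw [← sq_mul_rt hφ b b' w]; exact hφ.sq _⟩)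
      (fun w => ⟨‖j (c * r w c')‖, by rw [← sq_mul_rt hφ c c' w]; exact hφ.sq _⟩)]
    refine integral_congr_ae (Eventually.of_forall fun w => ?_)
    simp only [hF]
    rw [sq_mul_rt hφ b b' w, sq_mul_rt hφ c c' w]
  have e2 : ∀ w, ⟪e z, Tm hφ hM (b * r w b') (c * r w c') (e x)⟫_ℂ = ∫ u, F u w ∂μ' := by
    intro w
    rw [Tm_e h, hM.inn]
    rfl
  have hcF : Continuous fun q : G' × G => F q.1 q.2 := by
    have h1 : Continuous fun q : G' × G =>
        th μ (φ (b * r q.2 b')) (φ (c * r q.2 c')) (x.1 q.1) :=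
      hφ.th_cont ((row_cont P b b').comp continuous_snd) ((row_cont P c c').comp continuous_snd)
        ((hM.fd _ x.2).continuous.comp continuous_fst)
    exact (((hM.fd _ z.2).continuous_apply ω).comp continuous_fst).inner
      (h1.clm_apply continuous_const)
  have hl : ∀ w, L2 ω μ' (fun u => th μ (φ (b * r w b')) (φ (c * r w c')) (x.1 u)) := fun w =>
    hM.l2 _ (hM.inv _ _ _ x.2)
  have hint : Integrable (fun q : G' × G => F q.1 q.2) (μ'.prod μ) := by
    rw [integrable_prod_iff' hcF.aestronglyMeasurable]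
    refine ⟨Eventually.of_forall fun w => integrable_ip (hM.l2 _ z.2) (hl w), ?_⟩
    have h2 := (row_int2 P b b' c c').const_mul (‖e z‖ * ‖e x‖)
    refine h2.mono' ?_ (Eventually.of_forall fun w => ?_)
    · exact (hcF.norm.aestronglyMeasurable (μ := μ'.prod μ)).prod_swap.integral_prod_right'
    · rw [Real.norm_of_nonneg (integral_nonneg fun _ => norm_nonneg _)]
      have h3 := integral_norm_inner_le (hM.l2 _ z.2) (hl w)
      refine h3.trans ?_
      have n1 : ‖(hM.l2 _ z.2).toLp _‖ = ‖e z‖ := by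
        have := norm_toLp_sq (hM.l2 _ z.2)
        rw [← hM.norm_sq] at this
        exact (sq_eq_sq₀ (norm_nonneg _) (norm_nonneg _)).1 this
      have n2 : ‖(hl w).toLp _‖ = ‖Tm hφ hM (b * r w b') (c * r w c') (e x)‖ := by
        have h4 := norm_toLp_sq (hl w)
        have h5 := hM.norm_sq (tx hM (b * r w b') (c * r w c') x)
        rw [Tm_e h]
        exact (sq_eq_sq₀ (norm_nonneg _) (norm_nonneg _)).1 (h4.trans h5.symm)
      rw [n1, n2, mul_assoc]
      refine mul_le_mul_of_nonneg_left ?_ (norm_nonneg _)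
      refine ((Tm hφ hM (b * r w b') (c * r w c')).le_opNorm _).trans ?_
      rw [mul_comm]
      exact mul_le_mul_of_nonneg_left (norm_Tm_le h hφ hM _ _) (norm_nonneg _)
  rw [e1, integral_integral_swap hint]
  refine integral_congr_ae (Eventually.of_forall fun w => ?_)
  simp only
  rw [e2]

include h in
/-- **the product formula** -/
theorem Tm_prod (P : Pk j α U m r R μ) (b c b' c' : A) (z x : M) :
    ⟪z, Tm hφ hM b c (Tm hφ hM b' c' x)⟫_ℂ =
      ∫ w, ⟪z, Tm hφ hM (b * r w b') (c * r w c') x⟫_ℂ ∂μ := by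
  set T : G → (M →L[ℂ] M) := fun w => Tm hφ hM (b * r w b') (c * r w c') with hT
  have cT : Continuous T := Tm_cont h hφ hM (row_cont P b b') (row_cont P c c')
  have iT : Integrable T μ := by
    refine (row_int2 P b b' c c').mono cT.aestronglyMeasurable (Eventually.of_forall fun w => ?_)
    rw [Real.norm_of_nonneg (by positivity)]
    exact norm_Tm_le h hφ hM _ _
  have h1 : ∀ z x, ⟪z, (∫ w, T w ∂μ) x⟫_ℂ = ∫ w, ⟪z, T w x⟫_ℂ ∂μ := fun z x => by
    have h2 := ContinuousLinearMap.integral_comp_comm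
      ((innerSL ℂ z).comp (ContinuousLinearMap.apply ℂ M x)) iT
    simpa using h2.symm
  have h2 : Tm hφ hM b c * Tm hφ hM b' c' = ∫ w, T w ∂μ := hM.ext2 fun z x => by
    rw [h1]
    exact Tm_prod_e h hφ hM P b c b' c' z x
  rw [← h1, ← h2]
  rfl

include h in
/-- **`Θ` is a family of the type `ThF`** -/
theorem Tm_ThF [StarModule ℂ A] (P : Pk j α U m r R μ) : ThF j r μ (Tm hφ hM) where
  add_left := Tm_add_left h hφ hM
  smul_left := Tm_smul_left h hφ hM
  add_right := Tm_add_right h hφ hM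
  smul_right := Tm_smul_right h hφ hM
  bdd := norm_Tm_le h hφ hM
  adj := adjoint_Tm h hφ hM P
  prod := fun b c b' c' x z => Tm_prod h hφ hM P b c b' c' z x

end op

end Vale.Agent.P092.QT.H821
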